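import Vale.Agent.P022.H29.L3.Inst
import Vale.Agent.P022.H218.L3.Hp
import Vale.Agent.P022.H406.L3.Asm

/-!
Helper29 (P022, P022-L3, chapter G): the record `BaseIn` of helper406: the Hauptmodul
`p = (X - Y) / (2 (X + 2 Y))` of `Γ₀(6)`.
-/

open UpperHalfPlane ModularForm CongruenceSubgroup
open scoped Manifold MatrixGroups ModularForm Topology Derivative

noncomputable section

namespace Vale.Agent.P022.H29.L3

open Vale.Agent.P022.H218.L3 Vale.Agent.P022.H494.L3 Vale.Agent.P022.H406.L3

theorem p_eq (τ : ℍ) : hp X Y τ * (2 * (X τ + 2 * Y τ)) = X τ - Y τ := by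
  unfold hp
  exact div_mul_cancel₀ _ (mul_ne_zero two_ne_zero (fac_ne τ).2.2.2)

/-- **the base** -/
def base : BaseIn where
  P := hp X Y
  hP := p_mem
  mf := (hp_field isMF_X isMF_Y p_mem p_eq id4 idD).2.2
  der := deriv_p_ne_zero
  onto a ha := p_onto (by simpa using ha 0 (mem_S0.2 (Or.inl rfl)))
    (by simpa using ha (1 / 8) (mem_S0.2 (Or.inr (Or.inl rfl))))
    (by simpa using ha (-1) (mem_S0.2 (Or.inr (Or.inr rfl))))
  omit' τ s hs := by
    obtain ⟨h1, h2, h3⟩ := p_omit τ
    rcases mem_S0.1 hs with rfl | rfl | rfl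
    · simpa using h1
    · simpa using h2
    · simpa using h3

end Vale.Agent.P022.H29.L3
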