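import Vale.Agent.P022.H29.L3.Wr

/-!
Helper29 (P022, P022-L3, chapter G, row [ID]): the expansions of `E₄`, `E₆` of Mathlib on
the whole upper half plane, a small calculus of forms with integral first coefficients, and the
identities

`E₄ = 5 X⁴ + 12 X³ Y - 16 X Y³`,
`E₆ = - 11 X⁶ - 42 X⁵ Y - 18 X⁴ Y² + 56 X³ Y³ + 48 X² Y⁴ - 32 Y⁶`,
`432 Δ = (X - Y) (X - 2 Y)⁶ (X + Y)³ (X + 2 Y)²`

for two forms `X`, `Y` of weight one for a group of index at most `24` not containing `-1`, with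
`X = 1 + 6 q + 6 q³ + 6 q⁴ + O(q⁷)`, `Y = 1 + 6 q² + 6 q⁶ + O(q⁷)`.
-/

open UpperHalfPlane ModularForm Filter Asymptotics EisensteinSeries
open scoped Manifold MatrixGroups ModularForm Topology Derivative

noncomputable section

namespace Vale.Agent.P022.H29.L3

open Vale.Agent.P022.H218.L3

theorem ex_form {k : ℤ} (f : ModularForm 𝒮ℒ k) :
    Ex (fun n => (qExpansion 1 f).coeff n) f := fun τ =>
  ModularForm.hasSum_qExpansion f one_pos one_mem_strictPeriods_SL τ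

theorem isMF_form {k : ℤ} (f : ModularForm 𝒮ℒ k) : IsMF ⊤ k f where
  hol := f.holo'
  slash γ _ := f.slash_action_eq' _ ⟨γ, rfl⟩
  bdd γ := ModularFormClass.bdd_at_infty_slash f γ

/-- forms with given integral first coefficients -/
structure Fm (Γ : Subgroup SL(2, ℤ)) (N : ℕ) (k : ℤ) (f : ℍ → ℂ) (l : List ℤ) : Prop where
  mf : IsMF Γ k f
  ex : ∃ a : ℕ → ℂ, Ex a f ∧ ∀ n < N, a n = ((l.getD n 0 : ℤ) : ℂ)

variable {Γ : Subgroup SL(2, ℤ)} {N : ℕ} {k k' : ℤ} {f g : ℍ → ℂ} {l m r : List ℤ}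

theorem Fm.mul (hf : Fm Γ N k f l) (hg : Fm Γ N k' g m)
    (h : ∀ n < N, ∑ i ∈ Finset.range (n + 1), l.getD i 0 * m.getD (n - i) 0 = r.getD n 0) :
    Fm Γ N (k + k') (f * g) r := by
  obtain ⟨a, ha, hav⟩ := hf.ex
  obtain ⟨b, hb, hbv⟩ := hg.ex
  refine ⟨hf.mf.mul hg.mf, cmul a b, ha.mul hb, fun n hn => ?_⟩
  rw [← h n hn, cmul, Finset.Nat.sum_antidiagonal_eq_sum_range_succ (fun i j => a i * b j)]
  push_cast
  refine Finset.sum_congr rfl fun i hi => ?_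
  have hi' : i ≤ n := Nat.lt_succ_iff.1 (Finset.mem_range.1 hi)
  rw [hav i (by omega), hbv (n - i) (by omega)]

theorem Fm.smul (c : ℤ) (hf : Fm Γ N k f l) (h : ∀ n < N, c * l.getD n 0 = r.getD n 0) :
    Fm Γ N k ((c : ℂ) • f) r := by
  obtain ⟨a, ha, hav⟩ := hf.ex
  refine ⟨hf.mf.smul _, fun n => c * a n, ha.smul _, fun n hn => ?_⟩
  simp only
  rw [hav n hn, ← h n hn]
  push_cast
  rfl

theorem Fm.add (hf : Fm Γ N k f l) (hg : Fm Γ N k g m)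
    (h : ∀ n < N, l.getD n 0 + m.getD n 0 = r.getD n 0) : Fm Γ N k (f + g) r := by
  obtain ⟨a, ha, hav⟩ := hf.ex
  obtain ⟨b, hb, hbv⟩ := hg.ex
  refine ⟨hf.mf.add hg.mf, fun n => a n + b n, ha.add hb, fun n hn => ?_⟩
  simp only
  rw [hav n hn, hbv n hn, ← h n hn]
  push_cast
  rfl

/-- Sturm for two forms with the same first coefficients -/
theorem Fm.unique [Γ.FiniteIndex] (hidx : Γ.index ≤ 24) (hneg : (-1 : SL(2, ℤ)) ∉ Γ) {k : ℕ}
    (hf : Fm Γ (k + 1) k f l) (hg : Fm Γ (k + 1) k g l) : f = g := by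
  obtain ⟨a, ha, hav⟩ := hf.ex
  obtain ⟨b, hb, hbv⟩ := hg.ex
  have h : f - g = 0 := by
    refine sturm_of_neg_notMem (hf.mf.sub hg.mf) hneg (ha.sub hb) (m := k + 1) ?_ ?_
    · intro n hn
      rw [hav n hn, hbv n hn, sub_self]
    · have h1 : (Γ.index : ℤ) ≤ 24 := by exact_mod_cast hidx
      have h2 : (k : ℤ) * Γ.index ≤ k * 24 := mul_le_mul_of_nonneg_left h1 (by positivity)
      push_cast
      linarith
  exact sub_eq_zero.1 h

theorem fm_E4 : Fm Γ 5 4 E₄ [1, 240, 2160, 6720, 17520] := by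
  refine ⟨(isMF_form E₄).mono le_top, _, ex_form E₄, fun n hn => ?_⟩
  have hb : bernoulli 4 = -1 / 30 := by decide +kernel
  interval_cases n
  · norm_num [E_qExpansion_coeff _ ⟨2, rfl⟩, hb]
  · norm_num [E_qExpansion_coeff _ ⟨2, rfl⟩, hb]
  · norm_num [E_qExpansion_coeff _ ⟨2, rfl⟩, hb, show ArithmeticFunction.sigma 3 2 = 9 by decide +kernel]
  · norm_num [E_qExpansion_coeff _ ⟨2, rfl⟩, hb, show ArithmeticFunction.sigma 3 3 = 28 by decide +kernel]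
  · norm_num [E_qExpansion_coeff _ ⟨2, rfl⟩, hb, show ArithmeticFunction.sigma 3 4 = 73 by decide +kernel]

theorem fm_E6 : Fm Γ 7 6 E₆ [1, -504, -16632, -122976, -532728, -1575504, -4058208] := by
  refine ⟨(isMF_form E₆).mono le_top, _, ex_form E₆, fun n hn => ?_⟩
  have hb : bernoulli 6 = 1 / 42 := by decide +kernel
  interval_cases n
  · norm_num [E_qExpansion_coeff _ ⟨3, rfl⟩, hb]
  · norm_num [E_qExpansion_coeff _ ⟨3, rfl⟩, hb]
  · norm_num [E_qExpansion_coeff _ ⟨3, rfl⟩, hb, show ArithmeticFunction.sigma 5 2 = 33 by decide +kernel]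
  · norm_num [E_qExpansion_coeff _ ⟨3, rfl⟩, hb, show ArithmeticFunction.sigma 5 3 = 244 by decide +kernel]
  · norm_num [E_qExpansion_coeff _ ⟨3, rfl⟩, hb, show ArithmeticFunction.sigma 5 4 = 1057 by decide +kernel]
  · norm_num [E_qExpansion_coeff _ ⟨3, rfl⟩, hb, show ArithmeticFunction.sigma 5 5 = 3126 by decide +kernel]
  · norm_num [E_qExpansion_coeff _ ⟨3, rfl⟩, hb, show ArithmeticFunction.sigma 5 6 = 8052 by decide +kernel]

/-- the hypothesis on the two forms -/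
structure XY (Γ : Subgroup SL(2, ℤ)) (X Y : ℍ → ℂ) : Prop where
  fX : Fm Γ 7 1 X [1, 6, 0, 6, 6, 0, 0]
  fY : Fm Γ 7 1 Y [1, 0, 6, 0, 0, 0, 6]

theorem Fm.mono_N {N' : ℕ} (h : N' ≤ N) (hf : Fm Γ N k f l) : Fm Γ N' k f l := by
  obtain ⟨a, ha, hav⟩ := hf.ex
  exact ⟨hf.mf, a, ha, fun n hn => hav n (by omega)⟩

section ids

variable {X Y : ℍ → ℂ}

theorem XY.e4 (h : XY Γ X Y) [Γ.FiniteIndex] (hidx : Γ.index ≤ 24)
    (hneg : (-1 : SL(2, ℤ)) ∉ Γ) (τ : ℍ) :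
    E₄ τ = 5 * X τ ^ 4 + 12 * X τ ^ 3 * Y τ - 16 * X τ * Y τ ^ 3 := by
  have x1 := h.fX.mono_N (show 5 ≤ 7 by norm_num)
  have y1 := h.fY.mono_N (show 5 ≤ 7 by norm_num)
  have x2 : Fm Γ 5 (1 + 1) (X * X) [1, 12, 36, 12, 84] := x1.mul x1 (by decide)
  have xy : Fm Γ 5 (1 + 1) (X * Y) [1, 6, 6, 42, 6] := x1.mul y1 (by decide)
  have y2 : Fm Γ 5 (1 + 1) (Y * Y) [1, 0, 12, 0, 36] := y1.mul y1 (by decide)
  have a1 : Fm Γ 5 (1 + 1 + (1 + 1)) (X * X * (X * X)) [1, 24, 216, 888, 1752] :=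
    x2.mul x2 (by decide)
  have a2 : Fm Γ 5 (1 + 1 + (1 + 1)) (X * X * (X * Y)) [1, 18, 114, 342, 882] :=
    x2.mul xy (by decide)
  have a3 : Fm Γ 5 (1 + 1 + (1 + 1)) (X * Y * (Y * Y)) [1, 6, 18, 114, 114] :=
    xy.mul y2 (by decide)
  have b1 : Fm Γ 5 (1 + 1 + (1 + 1)) (((5 : ℤ) : ℂ) • (X * X * (X * X)))
      [5, 120, 1080, 4440, 8760] := a1.smul 5 (by decide)
  have b2 : Fm Γ 5 (1 + 1 + (1 + 1)) (((12 : ℤ) : ℂ) • (X * X * (X * Y)))
      [12, 216, 1368, 4104, 10584] := a2.smul 12 (by decide)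
  have b3 : Fm Γ 5 (1 + 1 + (1 + 1)) (((-16 : ℤ) : ℂ) • (X * Y * (Y * Y)))
      [-16, -96, -288, -1824, -1824] := a3.smul (-16) (by decide)
  have c1 : Fm Γ 5 (1 + 1 + (1 + 1)) (((5 : ℤ) : ℂ) • (X * X * (X * X)) +
      ((12 : ℤ) : ℂ) • (X * X * (X * Y))) [17, 336, 2448, 8544, 19344] := b1.add b2 (by decide)
  have c2 : Fm Γ 5 (1 + 1 + (1 + 1)) (((5 : ℤ) : ℂ) • (X * X * (X * X)) +
      ((12 : ℤ) : ℂ) • (X * X * (X * Y)) + ((-16 : ℤ) : ℂ) • (X * Y * (Y * Y)))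
      [1, 240, 2160, 6720, 17520] := c1.add b3 (by decide)
  have key := Fm.unique (k := 4) hidx hneg (fm_E4 (Γ := Γ)) (by exact_mod_cast c2)
  have := congrFun key τ
  simp only [Pi.add_apply, Pi.smul_apply, Pi.mul_apply, smul_eq_mul] at this
  rw [this]
  push_cast
  ring

theorem XY.e6 (h : XY Γ X Y) [Γ.FiniteIndex] (hidx : Γ.index ≤ 24)
    (hneg : (-1 : SL(2, ℤ)) ∉ Γ) (τ : ℍ) :
    E₆ τ = -11 * X τ ^ 6 - 42 * X τ ^ 5 * Y τ - 18 * X τ ^ 4 * Y τ ^ 2 + 56 * X τ ^ 3 * Y τ ^ 3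
      + 48 * X τ ^ 2 * Y τ ^ 4 - 32 * Y τ ^ 6 := by
  have x1 := h.fX
  have y1 := h.fY
  have x2 : Fm Γ 7 (1 + 1) (X * X) [1, 12, 36, 12, 84, 72, 36] := x1.mul x1 (by decide)
  have y2 : Fm Γ 7 (1 + 1) (Y * Y) [1, 0, 12, 0, 36, 0, 12] := y1.mul y1 (by decide)
  have x3 : Fm Γ 7 (1 + 1 + 1) (X * X * X) [1, 18, 108, 234, 234, 864, 756] :=
    x2.mul x1 (by decide)
  have y3 : Fm Γ 7 (1 + 1 + 1) (Y * Y * Y) [1, 0, 18, 0, 108, 0, 234] := y2.mul y1 (by decide)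
  have x2y : Fm Γ 7 (1 + 1 + 1) (X * X * Y) [1, 12, 42, 84, 300, 144, 546] :=
    x2.mul y1 (by decide)
  have y2x : Fm Γ 7 (1 + 1 + 1) (Y * Y * X) [1, 6, 12, 78, 42, 288, 84] := y2.mul x1 (by decide)
  have a1 : Fm Γ 7 (1 + 1 + 1 + (1 + 1 + 1)) (X * X * X * (X * X * X))
      [1, 36, 540, 4356, 20556, 60696, 137916] := x3.mul x3 (by decide)
  have a2 : Fm Γ 7 (1 + 1 + 1 + (1 + 1 + 1)) (X * X * X * (X * X * Y))
      [1, 30, 366, 2370, 9390, 28116, 76146] := x3.mul x2y (by decide)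
  have a3 : Fm Γ 7 (1 + 1 + 1 + (1 + 1 + 1)) (X * X * Y * (X * X * Y))
      [1, 24, 228, 1176, 4380, 14544, 36804] := x2y.mul x2y (by decide)
  have a4 : Fm Γ 7 (1 + 1 + 1 + (1 + 1 + 1)) (X * X * X * (Y * Y * Y))
      [1, 18, 126, 558, 2286, 7020, 16866] := x3.mul y3 (by decide)
  have a5 : Fm Γ 7 (1 + 1 + 1 + (1 + 1 + 1)) (Y * Y * X * (Y * Y * X))
      [1, 12, 60, 300, 1164, 2952, 10716] := y2x.mul y2x (by decide)
  have a6 : Fm Γ 7 (1 + 1 + 1 + (1 + 1 + 1)) (Y * Y * Y * (Y * Y * Y))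
      [1, 0, 36, 0, 540, 0, 4356] := y3.mul y3 (by decide)
  have b1 := a1.smul (-11) (r := [-11, -396, -5940, -47916, -226116, -667656, -1517076])
    (by decide)
  have b2 := a2.smul (-42) (r := [-42, -1260, -15372, -99540, -394380, -1180872, -3198132])
    (by decide)
  have b3 := a3.smul (-18) (r := [-18, -432, -4104, -21168, -78840, -261792, -662472])
    (by decide)
  have b4 := a4.smul 56 (r := [56, 1008, 7056, 31248, 128016, 393120, 944496]) (by decide)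
  have b5 := a5.smul 48 (r := [48, 576, 2880, 14400, 55872, 141696, 514368]) (by decide)
  have b6 := a6.smul (-32) (r := [-32, 0, -1152, 0, -17280, 0, -139392]) (by decide)
  have c1 := b1.add b2 (r := [-53, -1656, -21312, -147456, -620496, -1848528, -4715208])
    (by decide)
  have c2 := c1.add b3 (r := [-71, -2088, -25416, -168624, -699336, -2110320, -5377680])
    (by decide)
  have c3 := c2.add b4 (r := [-15, -1080, -18360, -137376, -571320, -1717200, -4433184])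
    (by decide)
  have c4 := c3.add b5 (r := [33, -504, -15480, -122976, -515448, -1575504, -3918816])
    (by decide)
  have c5 := c4.add b6 (r := [1, -504, -16632, -122976, -532728, -1575504, -4058208])
    (by decide)
  have key := Fm.unique (k := 6) hidx hneg (fm_E6 (Γ := Γ)) (by exact_mod_cast c5)
  have := congrFun key τ
  simp only [Pi.add_apply, Pi.smul_apply, Pi.mul_apply, smul_eq_mul] at this
  rw [this]
  push_cast
  ring

theorem XY.disc (h : XY Γ X Y) [Γ.FiniteIndex] (hidx : Γ.index ≤ 24)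
    (hneg : (-1 : SL(2, ℤ)) ∉ Γ) (τ : ℍ) :
    432 * discriminant τ =
      (X τ - Y τ) * (X τ - 2 * Y τ) ^ 6 * (X τ + Y τ) ^ 3 * (X τ + 2 * Y τ) ^ 2 := by
  rw [discriminant_eq_E₄_cube_sub_E₆_sq, h.e4 hidx hneg, h.e6 hidx hneg]
  ring

/-- the four factors have no zero -/
theorem XY.ne (h : XY Γ X Y) [Γ.FiniteIndex] (hidx : Γ.index ≤ 24)
    (hneg : (-1 : SL(2, ℤ)) ∉ Γ) (τ : ℍ) :
    X τ - Y τ ≠ 0 ∧ X τ - 2 * Y τ ≠ 0 ∧ X τ + Y τ ≠ 0 ∧ X τ + 2 * Y τ ≠ 0 := by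
  have hd : 432 * discriminant τ ≠ 0 := mul_ne_zero (by norm_num) (discriminant_ne_zero τ)
  rw [h.disc hidx hneg τ] at hd
  refine ⟨?_, ?_, ?_, ?_⟩ <;> intro h0 <;> apply hd <;> rw [h0] <;> simp

end ids

end Vale.Agent.P022.H29.L3
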