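import Vale.Agent.P022.H29.L3.Onto
import Vale.Agent.P022.H494.L3.Id

/-!
Helper29 (P022, P022-L3, chapter G): the rows [WR] and [ONTO] for the theta functions `X`, `Y` of
helper494: no hypothesis is left.
-/

open UpperHalfPlane ModularForm Filter Asymptotics EisensteinSeries CongruenceSubgroup
open scoped Manifold MatrixGroups ModularForm Topology Derivative

noncomputable section

namespace Vale.Agent.P022.H29.L3

open Vale.Agent.P022.H218.L3 Vale.Agent.P022.H494.L3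

/-- a Mathlib form of level one is `IsMF ⊤`. -/
theorem isMF_form' {k : ℤ} (f : ModularForm 𝒮ℒ k) : IsMF ⊤ k f where
  hol := f.holo'
  slash γ _ := f.slash_action_eq' _ ⟨γ, rfl⟩
  bdd γ := ModularFormClass.bdd_at_infty_slash f γ

theorem ex_of_QE {f : ℍ → ℂ} {P : PowerSeries ℂ} (h : QE f P) : Ex (fun n => P.coeff n) f :=
  fun τ => h τ

/-- limit at `i∞` from the expansion -/
theorem tendsto_of_ex {a : ℕ → ℂ} {f : ℍ → ℂ} (h : Ex a f) : Tendsto f atImInfty (𝓝 (a 0)) := by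
  set b : ℕ → ℂ := fun n => a n - if n = 0 then a 0 else 0 with hb
  have hc : Ex (fun n => if n = 0 then a 0 else 0) (fun _ => a 0) := by
    intro τ
    have h1 := hasSum_ite_eq (0 : ℕ) (a 0)
    refine h1.congr_fun ?_ |> id
    intro n
    by_cases hn : n = 0
    · simp [hn]
    · simp [hn]
  have h1 : Ex b (f - fun _ => a 0) := h.sub hc
  have h2 := isBigO_of_hasSum one_pos h1 (m := 1) (fun n hn => by
    have : n = 0 := by omega
    subst this
    simp [hb])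
  have hlim : Tendsto (fun τ : ℍ => Real.exp (-(2 * Real.pi * ((1 : ℕ) / (1 : ℝ)) * τ.im)))
      atImInfty (𝓝 0) := by
    have h1 : Tendsto (fun τ : ℍ => τ.im) atImInfty atTop := tendsto_comap
    have h2 : Tendsto (fun τ : ℍ => 2 * Real.pi * ((1 : ℕ) / (1 : ℝ)) * τ.im) atImInfty atTop :=
      h1.const_mul_atTop (by have := Real.pi_pos; positivity)
    exact Real.tendsto_exp_neg_atTop_nhds_zero.comp h2
  have h3 : Tendsto (f - fun _ => a 0) atImInfty (𝓝 0) := h2.trans_tendsto hlim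
  have h4 := h3.add_const (a 0)
  rw [zero_add] at h4
  refine h4.congr fun τ => ?_
  simp

theorem tendsto_E4 : Tendsto (E₄ : ℍ → ℂ) atImInfty (𝓝 1) := by
  have h : Ex (fun n => (qExpansion 1 E₄).coeff n) E₄ := fun τ =>
    ModularForm.hasSum_qExpansion E₄ one_pos one_mem_strictPeriods_SL τ
  have h1 := tendsto_of_ex h
  rwa [E_qExpansion_coeff_zero _ ⟨2, rfl⟩] at h1

theorem neg_one_notMem : (-1 : SL(2, ℤ)) ∉ Gamma1 6 := by
  intro h
  rw [Gamma1_mem] at h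
  have := h.1
  revert this
  simp
  decide

/-- `p` is holomorphic on `ℍ` -/
theorem p_mem : hp X Y ∈ Hol := hp_mem isMF_X.hol isMF_Y.hol fun τ => (fac_ne τ).2.2.2

theorem cX (n : ℕ) (hn : n < 7) : PX.coeff n = (([1, 6, 0, 6, 6, 0, 0].getD n 0 : ℤ) : ℂ) :=
  isT_X n hn

theorem cY (n : ℕ) (hn : n < 7) : PY.coeff n = (([1, 0, 6, 0, 0, 0, 6].getD n 0 : ℤ) : ℂ) :=
  isT_Y n hn

/-- the Wronskian of `X` and `Y` -/
theorem six_wr_XY (τ : ℍ) :
    6 * wr X Y τ = (X τ - Y τ) * (X τ - 2 * Y τ) * (X τ + Y τ) * (X τ + 2 * Y τ) :=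
  six_wr index_le neg_one_notMem isMF_X isMF_Y (ex_of_QE QE_X) (ex_of_QE QE_Y)
    (by simpa using cX 0 (by norm_num)) (by simpa using cX 1 (by norm_num))
    (by simpa using cX 2 (by norm_num)) (by simpa using cX 3 (by norm_num))
    (by simpa using cX 4 (by norm_num)) (by simpa using cY 0 (by norm_num))
    (by simpa using cY 1 (by norm_num)) (by simpa using cY 2 (by norm_num))
    (by simpa using cY 3 (by norm_num)) (by simpa using cY 4 (by norm_num)) τ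

/-- **the derivative of `p` has no zero on `ℍ`** -/
theorem D_p_ne_zero (τ : ℍ) : D (hp X Y) τ ≠ 0 := by
  rw [D_hp isMF_X.hol isMF_Y.hol fun τ => (fac_ne τ).2.2.2]
  have h := six_wr_XY τ
  obtain ⟨h1, h2, h3, h4⟩ := fac_ne τ
  have hw : wr X Y τ ≠ 0 := by
    intro h0
    rw [h0, mul_zero] at h
    exact mul_ne_zero (mul_ne_zero (mul_ne_zero h1 h2) h3) h4 h.symm
  exact div_ne_zero (mul_ne_zero (by norm_num) hw) (mul_ne_zero two_ne_zero (pow_ne_zero _ h4))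

theorem deriv_p_ne_zero (τ : ℍ) : deriv (hp X Y ∘ ofComplex) (τ : ℂ) ≠ 0 := by
  intro h
  refine D_p_ne_zero τ ?_
  unfold Derivative.normalizedDerivOfComplex
  rw [h, mul_zero]

theorem p_nonconst : ∃ τ τ', hp X Y τ ≠ hp X Y τ' :=
  hp_nonconst ⟨UpperHalfPlane.I, D_p_ne_zero _⟩

/-- **`p` is onto the complement of `{0, 1/8, -1}`** -/
theorem p_onto {a : ℂ} (a0 : a ≠ 0) (a8 : a ≠ 1 / 8) (a1 : a ≠ -1) : ∃ τ, hp X Y τ = a :=
  hp_onto isMF_X isMF_Y (isMF_form' E₄) tendsto_E4 id4 idD (fun τ => (fac_ne τ).2.2.2)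
    p_nonconst a0 a8 a1

/-- **`p` omits the values `0`, `1/8`, `-1`** -/
theorem p_omit (τ : ℍ) : hp X Y τ ≠ 0 ∧ hp X Y τ ≠ 1 / 8 ∧ hp X Y τ ≠ -1 := by
  obtain ⟨h1, h2, h3, h4⟩ := fac_ne τ
  have hd : 2 * (X τ + 2 * Y τ) ≠ 0 := mul_ne_zero two_ne_zero h4
  unfold hp
  refine ⟨div_ne_zero h1 hd, fun h => ?_, fun h => ?_⟩
  · rw [div_eq_iff hd] at h
    exact h2 (by linear_combination (4 / 3 : ℂ) * h)
  · rw [div_eq_iff hd] at h
    exact h3 (by linear_combination (1 / 3 : ℂ) * h)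

/-- `p` is invariant under `Γ₁(6)` -/
theorem p_inv {γ : SL(2, ℤ)} (hγ : γ ∈ Gamma1 6) (τ : ℍ) : hp X Y (γ • τ) = hp X Y τ :=
  hp_inv isMF_X isMF_Y hγ τ

/-- the relation with `j` -/
theorem j_p (τ : ℍ) :
    (E₄ τ) ^ 3 * dp (hp X Y τ) = Qp (hp X Y τ) ^ 3 * discriminant τ :=
  j_hp (fac_ne τ).2.2.2 (id4 τ) (idD τ)

end Vale.Agent.P022.H29.L3
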