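import Vale.Agent.P022.H29.L3.Wr

/-!
Helper29 (P022, P022-L3, chapter G, row [ONTO]): a form of weight `0` is constant, and the
Hauptmodul `p = (X - Y) / (2 (X + 2 Y))` takes every value outside `{0, 1/8, -1}`.
-/

open UpperHalfPlane ModularForm Filter Asymptotics
open scoped Manifold MatrixGroups ModularForm Topology Derivative

noncomputable section

namespace Vale.Agent.P022.H29.L3

open Vale.Agent.P022.H218.L3

/-- a form of weight zero for a finite index subgroup is constant. -/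
theorem const_of_isMF_zero {Γ : Subgroup SL(2, ℤ)} [Γ.FiniteIndex] {f : ℍ → ℂ}
    (hf : IsMF Γ 0 f) : ∃ c, f = fun _ => c := by
  classical
  let : Fintype (SL(2, ℤ) ⧸ Γ) := Fintype.ofFinite _
  set τ0 : ℍ := UpperHalfPlane.I
  refine ⟨f τ0, ?_⟩
  set g : ℍ → ℂ := f - fun _ => f τ0 with hg
  have hgM : IsMF Γ 0 g := hf.sub (IsMF.const _)
  have hN := norm_isMF hgM
  rw [zero_mul] at hN
  obtain ⟨c, hc⟩ := const_of_weight_zero hN
  have h0 : (∏ q, tr hgM q) τ0 = 0 := by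
    rw [Finset.prod_apply]
    refine Finset.prod_eq_zero (Finset.mem_univ ((1 : SL(2, ℤ)) : SL(2, ℤ) ⧸ Γ)) ?_
    rw [tr_mk, inv_one, SlashAction.slash_one]
    simp [hg]
  have hc0 : c = 0 := by
    rw [hc] at h0
    exact h0
  have h1 : (∏ q, tr hgM q) = 0 := by
    rw [hc, hc0]; rfl
  rw [UpperHalfPlane.prod_eq_zero_iff] at h1
  · obtain ⟨q, -, hq⟩ := h1
    have hg0 : g = 0 := by
      induction q using QuotientGroup.induction_on with
      | H x =>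
        rw [tr_mk] at hq
        rwa [SlashAction.slash_eq_zero_iff] at hq
    funext τ
    have := congrFun hg0 τ
    simp only [hg, Pi.sub_apply, Pi.zero_apply] at this
    exact sub_eq_zero.1 this
  · intro q _
    induction q using QuotientGroup.induction_on with
    | H x => rw [tr_mk]; exact slash_mem hgM.hol _ _

/-- slash of weight `0` -/
theorem slash_zero_apply (f : ℍ → ℂ) (γ : SL(2, ℤ)) (τ : ℍ) : (f ∣[(0 : ℤ)] γ) τ = f (γ • τ) := by
  rw [SL_slash_apply]; simp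

/-- the Hauptmodul is invariant -/
theorem hp_inv {Γ : Subgroup SL(2, ℤ)} {X Y : ℍ → ℂ} (hX : IsMF Γ 1 X) (hY : IsMF Γ 1 Y)
    {γ : SL(2, ℤ)} (hγ : γ ∈ Γ) (τ : ℍ) : hp X Y (γ • τ) = hp X Y τ := by
  have h1 := congrFun (hX.slash γ hγ) τ
  have h2 := congrFun (hY.slash γ hγ) τ
  rw [SL_slash_apply] at h1 h2
  have hd : denom γ τ ≠ 0 := denom_ne_zero _ _
  have e1 : X (γ • τ) = X τ * denom γ τ := by
    rw [← h1, zpow_neg, zpow_one, mul_assoc, inv_mul_cancel₀ hd, mul_one]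
  have e2 : Y (γ • τ) = Y τ * denom γ τ := by
    rw [← h2, zpow_neg, zpow_one, mul_assoc, inv_mul_cancel₀ hd, mul_one]
  unfold hp
  rw [e1, e2, ← sub_mul, show 2 * (X τ * denom γ τ + 2 * (Y τ * denom γ τ)) =
    (2 * (X τ + 2 * Y τ)) * denom γ τ by ring, mul_div_mul_right _ _ hd]

/-- the numerator of `j`: `E₄ = (X + 2 Y)⁴ Q(p) / 81`. -/
def Qp (P : ℂ) : ℂ := 5 * (1 + 4 * P) ^ 4 + 12 * (1 + 4 * P) ^ 3 * (1 - 2 * P)
  - 16 * (1 + 4 * P) * (1 - 2 * P) ^ 3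

/-- the denominator of `j` -/
def dp (P : ℂ) : ℂ := P * (8 * P - 1) ^ 6 * (1 + P) ^ 3

/-- `E₄³ d(p) = Q(p)³ Δ`, i.e. `j = Q(p)³ / d(p)`. -/
theorem j_hp {x y e d : ℂ} (hz : x + 2 * y ≠ 0)
    (he : e = 5 * x ^ 4 + 12 * x ^ 3 * y - 16 * x * y ^ 3)
    (hd : 432 * d = (x - y) * (x - 2 * y) ^ 6 * (x + y) ^ 3 * (x + 2 * y) ^ 2) :
    e ^ 3 * dp ((x - y) / (2 * (x + 2 * y))) = Qp ((x - y) / (2 * (x + 2 * y))) ^ 3 * d := by
  set z : ℂ := x + 2 * y with hzdef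
  set P : ℂ := (x - y) / (2 * z) with hP
  have hPz : 2 * P * z = x - y := by
    rw [hP]; field_simp
  have hy : y = z * (1 - 2 * P) / 3 := by
    linear_combination (1 / 3 : ℂ) * hPz
  have hx : x = z * (1 + 4 * P) / 3 := by
    linear_combination (-2 / 3 : ℂ) * hPz - (1/3 : ℂ) * hzdef + (1/3:ℂ) * hzdef
  have he' : e = z ^ 4 / 81 * Qp P := by
    rw [he, hx, hy, Qp]; ring
  have hd' : d = z ^ 12 * dp P / 3 ^ 12 := by
    have h432 : (432 : ℂ) ≠ 0 := by norm_num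
    have h1 : 432 * d = 432 * (z ^ 12 * dp P / 3 ^ 12) := by
      rw [hd, hx, hy, dp]; ring
    exact mul_left_cancel₀ h432 h1
  rw [he', hd']
  ring

/-- transformation of a form of level one -/
theorem lev1_apply {k : ℕ} {e : ℍ → ℂ} (he : IsMF ⊤ (k : ℤ) e) (γ : SL(2, ℤ)) (τ : ℍ) :
    e (γ • τ) = e τ * denom γ τ ^ k := by
  have g1 := congrFun (he.slash γ (Subgroup.mem_top _)) τ
  rw [SL_slash_apply] at g1
  have hd : denom γ τ ^ k ≠ 0 := pow_ne_zero _ (denom_ne_zero _ _)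
  rw [← g1, mul_assoc, zpow_neg, zpow_natCast, inv_mul_cancel₀ hd, mul_one]

/-- the relation of the Hauptmodul with `j`, at all translates -/
theorem hp_rel {X Y e : ℍ → ℂ} (he : IsMF ⊤ 4 e)
    (hexy : ∀ τ, e τ = 5 * X τ ^ 4 + 12 * X τ ^ 3 * Y τ - 16 * X τ * Y τ ^ 3)
    (hdxy : ∀ τ, 432 * discriminant τ =
      (X τ - Y τ) * (X τ - 2 * Y τ) ^ 6 * (X τ + Y τ) ^ 3 * (X τ + 2 * Y τ) ^ 2)
    (hne : ∀ τ, X τ + 2 * Y τ ≠ 0) (γ : SL(2, ℤ)) (τ : ℍ) :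
    e τ ^ 3 * dp (hp X Y (γ • τ)) = Qp (hp X Y (γ • τ)) ^ 3 * discriminant τ := by
  have h : e (γ • τ) ^ 3 * dp (hp X Y (γ • τ)) =
      Qp (hp X Y (γ • τ)) ^ 3 * discriminant (γ • τ) :=
    j_hp (hne (γ • τ)) (hexy (γ • τ)) (hdxy (γ • τ))
  have he' : IsMF ⊤ ((4 : ℕ) : ℤ) e := he
  have hD' : IsMF ⊤ ((12 : ℕ) : ℤ) discriminant := disc_isMF
  rw [lev1_apply he' γ τ, lev1_apply hD' γ τ] at h
  generalize dp (hp X Y (γ • τ)) = u at h ⊢
  generalize Qp (hp X Y (γ • τ)) = v at h ⊢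
  have hd12 : denom γ τ ^ 12 ≠ 0 := pow_ne_zero _ (denom_ne_zero _ _)
  generalize denom γ τ = w at h hd12
  apply mul_right_cancel₀ hd12
  linear_combination h

/-- **the Hauptmodul is onto the complement of the values at the cusps.** -/
theorem hp_onto {Γ : Subgroup SL(2, ℤ)} [Γ.FiniteIndex] {X Y e : ℍ → ℂ} (hX : IsMF Γ 1 X)
    (hY : IsMF Γ 1 Y) (he : IsMF ⊤ 4 e) (he1 : Tendsto e atImInfty (𝓝 1))
    (hexy : ∀ τ, e τ = 5 * X τ ^ 4 + 12 * X τ ^ 3 * Y τ - 16 * X τ * Y τ ^ 3)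
    (hdxy : ∀ τ, 432 * discriminant τ =
      (X τ - Y τ) * (X τ - 2 * Y τ) ^ 6 * (X τ + Y τ) ^ 3 * (X τ + 2 * Y τ) ^ 2)
    (hne : ∀ τ, X τ + 2 * Y τ ≠ 0) (hnc : ∃ τ τ', hp X Y τ ≠ hp X Y τ')
    {a : ℂ} (a0 : a ≠ 0) (a8 : a ≠ 1 / 8) (a1 : a ≠ -1) : ∃ τ, hp X Y τ = a := by
  by_contra hcon
  push Not at hcon
  have hda : dp a ≠ 0 := by
    unfold dp
    refine mul_ne_zero (mul_ne_zero a0 (pow_ne_zero _ ?_)) (pow_ne_zero _ ?_)
    · intro h; apply a8; linear_combination h / 8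
    · intro h; apply a1; linear_combination h
  have hcd : Continuous dp := by unfold dp; fun_prop
  have hcQ : Continuous Qp := by unfold Qp; fun_prop
  have hev1 : ∀ᶠ P in 𝓝 a, ‖dp a‖ / 2 < ‖dp P‖ := by
    refine (hcd.norm.tendsto a).eventually (lt_mem_nhds ?_)
    have := norm_pos_iff.2 hda
    linarith
  have hev2 : ∀ᶠ P in 𝓝 a, ‖Qp P ^ 3‖ < ‖Qp a ^ 3‖ + 1 := by
    have h1 : Continuous fun P => ‖Qp P ^ 3‖ := (hcQ.pow 3).norm
    exact (h1.tendsto a).eventually (gt_mem_nhds (lt_add_one _))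
  obtain ⟨ε, hε, hball⟩ := Metric.eventually_nhds_iff.1 (hev1.and hev2)
  -- for large imaginary part no translate is near `a`
  have hlarge : ∀ᶠ τ : ℍ in atImInfty,
      (‖Qp a ^ 3‖ + 1) * ‖discriminant τ‖ < ‖e τ‖ ^ 3 * (‖dp a‖ / 2) := by
    have t1 : Tendsto (fun τ : ℍ => (‖Qp a ^ 3‖ + 1) * ‖discriminant τ‖) atImInfty (𝓝 0) := by
      have h0 : Tendsto (fun τ : ℍ => ‖discriminant τ‖) atImInfty (𝓝 0) := by
        have := (show Tendsto discriminant atImInfty (𝓝 0) from discriminant_isZeroAtImInfty).norm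
        simpa using this
      have h1 := h0.const_mul (‖Qp a ^ 3‖ + 1)
      rwa [mul_zero] at h1
    have t2 : Tendsto (fun τ : ℍ => ‖e τ‖ ^ 3 * (‖dp a‖ / 2)) atImInfty (𝓝 (‖dp a‖ / 2)) := by
      have := ((he1.norm.pow 3).mul_const (‖dp a‖ / 2))
      simpa using this
    exact t1.eventually_lt t2 (by have := norm_pos_iff.2 hda; linarith)
  have hrel : ∀ (γ : SL(2, ℤ)) (τ : ℍ), e τ ^ 3 * dp (hp X Y (γ • τ)) =
      Qp (hp X Y (γ • τ)) ^ 3 * discriminant τ := fun γ τ => hp_rel he hexy hdxy hne γ τ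
  have hfar : ∀ᶠ τ : ℍ in atImInfty, ∀ γ : SL(2, ℤ), ε ≤ ‖hp X Y (γ • τ) - a‖ := by
    filter_upwards [hlarge] with τ hτ γ
    by_contra hlt
    push Not at hlt
    obtain ⟨b1, b2⟩ := hball (y := hp X Y (γ • τ)) (by rwa [dist_eq_norm])
    have h := congrArg norm (hrel γ τ)
    rw [norm_mul, norm_mul, norm_pow] at h
    have c1 : ‖e τ‖ ^ 3 * (‖dp a‖ / 2) ≤ ‖e τ‖ ^ 3 * ‖dp (hp X Y (γ • τ))‖ :=
      mul_le_mul_of_nonneg_left b1.le (by positivity)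
    have c2 : ‖Qp (hp X Y (γ • τ)) ^ 3‖ * ‖discriminant τ‖ ≤
        (‖Qp a ^ 3‖ + 1) * ‖discriminant τ‖ :=
      mul_le_mul_of_nonneg_right b2.le (norm_nonneg _)
    linarith
  -- the function `1 / (p - a)`
  set g : ℍ → ℂ := fun τ => 1 / (hp X Y τ - a) with hg
  have hga : ∀ τ, hp X Y τ - a ≠ 0 := fun τ h => hcon τ (sub_eq_zero.1 h)
  have hpH := hp_mem hX.hol hY.hol hne
  have hgH : g ∈ Hol := by
    have h1 : (fun τ => hp X Y τ - a) ∈ Hol := Hol.sub_mem hpH (Bdd.const a).1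
    exact (mem_Hol.1 (Bdd.const 1).1).div (mem_Hol.1 h1) hga
  have hgM : IsMF Γ 0 g := by
    refine ⟨hgH, fun γ hγ => ?_, fun γ => ?_⟩
    · funext τ
      rw [slash_zero_apply]
      simp only [hg]
      rw [hp_inv hX hY hγ]
    · rw [isBoundedAtImInfty_iff]
      obtain ⟨A, hA⟩ := UpperHalfPlane.atImInfty_mem _ |>.1 hfar
      refine ⟨1 / ε, A, fun τ hτ => ?_⟩
      rw [slash_zero_apply]
      simp only [hg]
      rw [norm_div, norm_one]
      exact one_div_le_one_div_of_le hε (hA τ hτ γ)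
  obtain ⟨c, hc⟩ := const_of_isMF_zero hgM
  obtain ⟨τ, τ', hττ⟩ := hnc
  apply hττ
  have h1 := congrFun hc τ
  have h2 := congrFun hc τ'
  simp only [hg] at h1 h2
  have h3 : 1 / (hp X Y τ - a) = 1 / (hp X Y τ' - a) := by rw [h1, h2]
  have h4 : hp X Y τ - a = hp X Y τ' - a := by
    rw [one_div, one_div] at h3
    exact inv_injective h3
  linear_combination h4

/-- non constancy from the derivative -/
theorem hp_nonconst {X Y : ℍ → ℂ} (h : ∃ τ, D (hp X Y) τ ≠ 0) : ∃ τ τ', hp X Y τ ≠ hp X Y τ' := by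
  by_contra hcon
  push Not at hcon
  obtain ⟨τ, hτ⟩ := h
  apply hτ
  have : hp X Y = fun _ => hp X Y τ := funext fun τ' => hcon τ' τ
  rw [this, Derivative.normalizedDerivOfComplex_const]
  rfl

end Vale.Agent.P022.H29.L3
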