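import Vale.Agent.P022.H218.L3.Amb

/-!
Helper29 (P022, P022-L3, chapter G, row [STURM]): the Sturm bound for every finite index
subgroup of `SL(2, ℤ)`, in the letter `IsMF` of `H218/L3/Amb.lean`.

* `eq_zero_one`  : level one, growth form;
* `eq_zero_of_growth` : finite index, growth form (any finite set of representatives of cosets at
  which the translate has growth `exp (-2 π c y)`);
* `isBigO_of_hasSum` : growth from a q-expansion with vanishing first coefficients;
* `sturm` : first coefficients zero implies zero (index of `Γ`, `T`-periodic expansions), in the two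
  forms `-1 ∈ Γ` and `-1 ∉ Γ`.
-/

open UpperHalfPlane ModularForm Filter Asymptotics
open scoped Manifold MatrixGroups ModularForm Topology

noncomputable section

namespace Vale.Agent.P022.H29.L3

open Vale.Agent.P022.H218.L3

/-- a form of level one, as a Mathlib modular form. -/
def toML {w : ℤ} {N : ℍ → ℂ} (hN : IsMF ⊤ w N) : ModularForm 𝒮ℒ w where
  toFun := N
  slash_action_eq' := fun _ ⟨γ, hγ⟩ ↦ hγ ▸ hN.slash γ (Subgroup.mem_top _)
  holo' := hN.hol
  bdd_at_cusps' {c} hc := by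
    rw [Subgroup.IsArithmetic.isCusp_iff_isCusp_SL2Z] at hc
    rw [OnePoint.isBoundedAt_iff_forall_SL2Z hc]
    intro γ _
    exact hN.bdd γ

theorem toML_coe {w : ℤ} {N : ℍ → ℂ} (hN : IsMF ⊤ w N) : ⇑(toML hN) = N := rfl

/-- negative weight -/
theorem eq_zero_neg {w : ℤ} {N : ℍ → ℂ} (hN : IsMF ⊤ w N) (hw : w < 0) : N = 0 := by
  have := ModularFormClass.levelOne_neg_weight_eq_zero hw (toML hN)
  rwa [toML_coe] at this

theorem disc_isMF : IsMF ⊤ 12 discriminant where
  hol := CuspForm.discriminant.holo'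
  slash γ _ := SlashInvariantForm.slash_action_generators_SL2Z discriminant_S_invariant
    discriminant_T_invariant γ
  bdd γ := by
    rw [SlashInvariantForm.slash_action_generators_SL2Z discriminant_S_invariant
      discriminant_T_invariant γ]
    exact discriminant_isZeroAtImInfty.isBoundedAtImInfty

/-- level one, weight zero: constant -/
theorem const_of_weight_zero {N : ℍ → ℂ} (hN : IsMF ⊤ 0 N) : ∃ c, N = fun _ => c := by
  obtain ⟨c, hc⟩ := ModularFormClass.levelOne_weight_zero_const (toML hN)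
  exact ⟨c, hc⟩

/-- Sturm bound at level one, growth form. -/
theorem eq_zero_one {w : ℤ} {N : ℍ → ℂ} (hN : IsMF ⊤ w N) {c : ℝ}
    (hO : N =O[atImInfty] fun τ => Real.exp (-(2 * Real.pi * c * τ.im)))
    (hc : (w : ℝ) < 12 * c) : N = 0 := by
  rcases lt_or_ge w 0 with hw | hw
  · exact eq_zero_neg hN hw
  lift w to ℕ using hw
  -- the quotient `N ^ 12 / discriminant ^ w`
  have hD : ∀ τ, (discriminant τ) ^ w ≠ 0 := fun τ => pow_ne_zero _ (discriminant_ne_zero τ)
  set G : ℍ → ℂ := fun τ => N τ ^ 12 / (discriminant τ) ^ w with hG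
  have hDd := disc_isMF.hol
  have hGhol : G ∈ Hol := by
    have h1 : (N ^ 12) ∈ Hol := Hol.pow_mem hN.hol 12
    have h2 : (discriminant ^ w) ∈ Hol := Hol.pow_mem hDd w
    exact (mem_Hol.1 h1).div (mem_Hol.1 h2) hD
  have hGslash : ∀ γ : SL(2, ℤ), G ∣[(0 : ℤ)] γ = G := by
    intro γ
    funext τ
    have h1 := congrFun (hN.slash γ (Subgroup.mem_top _)) τ
    have h2 := congrFun (disc_isMF.slash γ (Subgroup.mem_top _)) τ
    rw [SL_slash_apply] at h1 h2 ⊢
    have hd : denom γ τ ≠ 0 := denom_ne_zero _ _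
    simp only [neg_zero, zpow_zero, mul_one, hG]
    rw [← h1, ← h2]
    have hdw : (denom γ τ) ^ (12 * w) ≠ 0 := pow_ne_zero _ hd
    have e1 : (N (γ • τ) * denom γ τ ^ (-(w : ℤ))) ^ 12 = N (γ • τ) ^ 12 / (denom γ τ) ^ (12 * w) := by
      rw [mul_pow, zpow_neg, zpow_natCast, inv_pow, ← pow_mul, mul_comm w 12, div_eq_mul_inv]
    have e2 : (discriminant (γ • τ) * denom γ τ ^ (-(12 : ℤ))) ^ w = discriminant (γ • τ) ^ w / (denom γ τ) ^ (12 * w) := by
      rw [mul_pow, zpow_neg, inv_pow, show ((12 : ℤ)) = ((12 : ℕ) : ℤ) by norm_num, zpow_natCast,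
        ← pow_mul, div_eq_mul_inv]
    rw [e1, e2, div_div_div_cancel_right₀ hdw]
  -- growth of `G`
  have hGO : G =O[atImInfty] fun τ => Real.exp (-(2 * Real.pi * (12 * c - w) * τ.im)) := by
    have h1 : (fun τ => N τ ^ 12) =O[atImInfty]
        fun τ => (Real.exp (-(2 * Real.pi * c * τ.im))) ^ 12 := hO.pow 12
    have h2 : (fun τ : ℍ => (Real.exp (-2 * Real.pi * τ.im)) ^ w) =O[atImInfty]
        fun τ => (discriminant τ) ^ w := exp_isBigO_discriminant.pow w
    have h3 : (fun τ => ((discriminant τ) ^ w)⁻¹) =O[atImInfty]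
        fun τ : ℍ => ((Real.exp (-2 * Real.pi * τ.im)) ^ w)⁻¹ := by
      refine h2.inv_rev (Eventually.of_forall fun τ h => ?_)
      exact absurd h (pow_ne_zero _ (Real.exp_ne_zero _))
    have h4 := h1.mul h3
    refine h4.congr (fun τ => (div_eq_mul_inv _ _).symm) (fun τ => ?_)
    rw [← Real.exp_nat_mul, ← Real.exp_nat_mul, ← Real.exp_neg, ← Real.exp_add]
    congr 1
    push_cast
    ring
  have hpos : 0 < 12 * c - w := by
    have : ((w : ℤ) : ℝ) = (w : ℝ) := by push_cast; rfl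
    linarith
  have hlim : Tendsto (fun τ : ℍ => Real.exp (-(2 * Real.pi * (12 * c - w) * τ.im))) atImInfty (𝓝 0) := by
    have h1 : Tendsto (fun τ : ℍ => τ.im) atImInfty atTop := tendsto_comap
    have h2 : Tendsto (fun τ : ℍ => 2 * Real.pi * (12 * c - w) * τ.im) atImInfty atTop :=
      h1.const_mul_atTop (by positivity)
    exact Real.tendsto_exp_neg_atTop_nhds_zero.comp h2
  have hG0 : Tendsto G atImInfty (𝓝 0) := hGO.trans_tendsto hlim
  have hGM : IsMF ⊤ 0 G := ⟨hGhol, fun γ _ => hGslash γ, fun γ => by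
    rw [hGslash γ]
    exact ZeroAtFilter.boundedAtFilter (show ZeroAtFilter atImInfty G from hG0)⟩
  obtain ⟨a, ha⟩ := const_of_weight_zero hGM
  have ha0 : a = 0 := by
    rw [ha] at hG0
    exact tendsto_nhds_unique tendsto_const_nhds hG0
  funext τ
  have h5 : G τ = 0 := by rw [ha, ha0]
  simp only [hG] at h5
  rw [div_eq_zero_iff] at h5
  rcases h5 with h5 | h5
  · exact pow_eq_zero_iff (by norm_num) |>.1 h5
  · exact absurd h5 (hD τ)

variable {Γ : Subgroup SL(2, ℤ)} {k : ℤ} {F : ℍ → ℂ}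

/-- the full norm of a form -/
theorem norm_isMF [Fintype (SL(2, ℤ) ⧸ Γ)] (hF : IsMF Γ k F) :
    IsMF ⊤ (k * Fintype.card (SL(2, ℤ) ⧸ Γ)) (∏ q, tr hF q) := by
  have htB : ∀ q, Bdd k (tr hF q) := by
    intro q
    induction q using QuotientGroup.induction_on with
    | H s => rw [tr_mk]; exact hF.toBdd.slash _
  refine (Bdd.prod Finset.univ fun q _ => htB q).isMF fun γ _ => ?_
  rw [prod_slash_SL]
  simp_rw [tr_slash hF γ]
  exact Fintype.prod_equiv (MulAction.toPerm γ⁻¹) _ _ fun q => rfl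

/-- **Sturm bound, growth form**: `s` a finite set of elements of `SL(2, ℤ)`, pairwise different
modulo `Γ`, at which the translate of `F` is `O(exp (-2 π c y))`. -/
theorem eq_zero_of_growth [Γ.FiniteIndex] (hF : IsMF Γ k F) (s : Finset SL(2, ℤ))
    (hs : ∀ x ∈ s, ∀ y ∈ s, x⁻¹ * y ∈ Γ → x = y) {c : ℝ}
    (hO : ∀ x ∈ s, (F ∣[k] x⁻¹) =O[atImInfty] fun τ => Real.exp (-(2 * Real.pi * c * τ.im)))
    (hc : (k * Γ.index : ℝ) < 12 * c * s.card) : F = 0 := by
  classical
  let : Fintype (SL(2, ℤ) ⧸ Γ) := Fintype.ofFinite _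
  have hN := norm_isMF hF
  set S : Finset (SL(2, ℤ) ⧸ Γ) := s.image (fun x : SL(2, ℤ) => (QuotientGroup.mk x : SL(2, ℤ) ⧸ Γ)) with hS
  have hcard : S.card = s.card := by
    rw [hS, Finset.card_image_of_injOn]
    intro x hx y hy hxy
    exact hs x hx y hy (QuotientGroup.eq.1 hxy)
  have hidx : Fintype.card (SL(2, ℤ) ⧸ Γ) = Γ.index := by
    rw [Subgroup.index, Nat.card_eq_fintype_card]
  have hgr : (∏ q, tr hF q) =O[atImInfty]
      fun τ => Real.exp (-(2 * Real.pi * (c * s.card) * τ.im)) := by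
    have h1 : (fun τ => ∏ q, tr hF q τ) =O[atImInfty] fun τ : ℍ =>
        ∏ q : SL(2, ℤ) ⧸ Γ, (if q ∈ S then Real.exp (-(2 * Real.pi * c * τ.im)) else 1) := by
      refine IsBigO.finsetProd fun q _ => ?_
      by_cases hq : q ∈ S
      · simp only [hq, if_true]
        rw [hS, Finset.mem_image] at hq
        obtain ⟨x, hx, rfl⟩ := hq
        rw [tr_mk]
        exact hO x hx
      · simp only [hq, if_false]
        induction q using QuotientGroup.induction_on with
        | H x =>
          rw [tr_mk]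
          exact hF.bdd x⁻¹
    refine h1.congr (fun τ => by simp [Finset.prod_apply]) (fun τ => ?_)
    rw [Finset.prod_ite_mem, Finset.univ_inter, Finset.prod_const, hcard, ← Real.exp_nat_mul]
    congr 1
    ring
  have h0 := eq_zero_one hN hgr (by
    push_cast
    rw [hidx]
    linarith)
  rw [UpperHalfPlane.prod_eq_zero_iff] at h0
  · obtain ⟨q, -, hq⟩ := h0
    induction q using QuotientGroup.induction_on with
    | H x =>
      rw [tr_mk] at hq
      rwa [SlashAction.slash_eq_zero_iff] at hq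
  · intro q _
    induction q using QuotientGroup.induction_on with
    | H x => rw [tr_mk]; exact slash_mem hF.hol _ _

/-- growth from a q-expansion. -/
theorem isBigO_of_hasSum {a : ℕ → ℂ} {h : ℝ} (hh : 0 < h)
    (hF : ∀ τ : ℍ, HasSum (fun n => a n * (Function.Periodic.qParam h τ) ^ n) (F τ)) {m : ℕ}
    (h0 : ∀ n < m, a n = 0) :
    F =O[atImInfty] fun τ => Real.exp (-(2 * Real.pi * (m / h) * τ.im)) := by
  -- compare with the value at height one
  set τ0 : ℍ := UpperHalfPlane.I with hτ0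
  set r : ℝ := ‖Function.Periodic.qParam h τ0‖ with hr
  have hnorm : ∀ τ : ℍ, ‖Function.Periodic.qParam h τ‖ = Real.exp (-2 * Real.pi * τ.im / h) := by
    intro τ
    rw [Function.Periodic.norm_qParam]
    rfl
  have hr0 : 0 < r := by rw [hr, hnorm]; exact Real.exp_pos _
  have hsum : Summable fun n => ‖a n * (Function.Periodic.qParam h τ0) ^ n‖ :=
    (hF τ0).summable.norm
  refine IsBigO.of_bound ((∑' n, ‖a n * (Function.Periodic.qParam h τ0) ^ n‖) / r ^ m) ?_
  have hev : ∀ᶠ τ : ℍ in atImInfty, 1 ≤ τ.im := by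
    have h1 : Tendsto (fun τ : ℍ => τ.im) atImInfty atTop := tendsto_comap
    exact h1.eventually_ge_atTop 1
  filter_upwards [hev] with τ hτ
  set q : ℂ := Function.Periodic.qParam h τ with hq
  have hqr : ‖q‖ ≤ r := by
    rw [hq, hr, hnorm, hnorm]
    apply Real.exp_le_exp.2
    rw [hτ0]
    simp only [UpperHalfPlane.I_im]
    refine div_le_div_of_nonneg_right ?_ hh.le
    nlinarith [Real.pi_pos]
  have hbd : ∀ n, ‖a n * q ^ n‖ ≤ ‖a n * (Function.Periodic.qParam h τ0) ^ n‖ * (‖q‖ / r) ^ m := by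
    intro n
    rcases lt_or_ge n m with hn | hn
    · rw [h0 n hn]; simp
    · rw [norm_mul, norm_mul, norm_pow, norm_pow, ← hr, mul_assoc]
      refine mul_le_mul_of_nonneg_left ?_ (norm_nonneg _)
      rw [div_pow, ← mul_div_assoc, le_div_iff₀ (pow_pos hr0 m)]
      obtain ⟨d, rfl⟩ := Nat.exists_eq_add_of_le hn
      rw [pow_add, pow_add]
      have h1 : ‖q‖ ^ d ≤ r ^ d := pow_le_pow_left₀ (norm_nonneg _) hqr d
      calc ‖q‖ ^ m * ‖q‖ ^ d * r ^ m = (‖q‖ ^ m * r ^ m) * ‖q‖ ^ d := by ring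
        _ ≤ (‖q‖ ^ m * r ^ m) * r ^ d := by
            apply mul_le_mul_of_nonneg_left h1; positivity
        _ = r ^ m * r ^ d * ‖q‖ ^ m := by ring
  have h2 : ‖F τ‖ ≤ ∑' n, ‖a n * (Function.Periodic.qParam h τ0) ^ n‖ * (‖q‖ / r) ^ m := by
    rw [← (hF τ).tsum_eq]
    exact tsum_of_norm_bounded (hsum.mul_right _).hasSum hbd
  rw [tsum_mul_right] at h2
  refine h2.trans (le_of_eq ?_)
  rw [Real.norm_of_nonneg (Real.exp_pos _).le, hq, hnorm τ, div_pow, ← Real.exp_nat_mul]
  rw [show (m : ℝ) * (-2 * Real.pi * τ.im / h) = -(2 * Real.pi * (m / h) * τ.im) by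
    field_simp]
  ring

/-- **Sturm bound**, `-1` not in `Γ`: the width of the cusp is `1` (`q = e(τ)`). -/
theorem sturm_of_neg_notMem [Γ.FiniteIndex] (hF : IsMF Γ k F) (hneg : (-1 : SL(2, ℤ)) ∉ Γ)
    {a : ℕ → ℂ} (ha : ∀ τ : ℍ, HasSum (fun n => a n * (Function.Periodic.qParam 1 τ) ^ n) (F τ))
    {m : ℕ} (h0 : ∀ n < m, a n = 0) (hm : k * Γ.index < 24 * m) : F = 0 := by
  classical
  have hO := isBigO_of_hasSum one_pos ha h0
  refine eq_zero_of_growth hF {1, -1} ?_ (c := m) ?_ ?_
  · intro x hx y hy hxy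
    simp only [Finset.mem_insert, Finset.mem_singleton] at hx hy
    rcases hx with rfl | rfl <;> rcases hy with rfl | rfl
    · rfl
    · exact absurd (by simpa using hxy) hneg
    · refine absurd ?_ hneg
      have : ((-1 : SL(2, ℤ))⁻¹ * 1) = -1 := by
        rw [mul_one, inv_eq_iff_mul_eq_one]; simp
      rwa [this] at hxy
    · rfl
  · intro x hx
    simp only [Finset.mem_insert, Finset.mem_singleton] at hx
    have hO' : F =O[atImInfty] fun τ => Real.exp (-(2 * Real.pi * (m : ℝ) * τ.im)) := by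
      simpa using hO
    rcases hx with rfl | rfl
    · rw [inv_one, SlashAction.slash_one]
      exact hO'
    · have hn : ((-1 : SL(2, ℤ))⁻¹) = -1 := by
        rw [inv_eq_iff_mul_eq_one]; simp
      rw [hn]
      have h1 : ∀ τ, ‖(F ∣[k] (-1 : SL(2, ℤ))) τ‖ = ‖F τ‖ := by
        intro τ
        rw [SL_slash_apply, norm_mul]
        have e1 : (-1 : SL(2, ℤ)) • τ = τ := by
          rw [UpperHalfPlane.ext_iff]
          simp
        have e2 : denom (-1 : SL(2, ℤ)) τ = -1 := by
          simp [denom]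
        rw [e1, e2]
        simp
      exact (hO'.norm_left.congr_left fun τ => (h1 τ).symm).of_norm_left
  · have hcard : ({1, -1} : Finset SL(2, ℤ)).card = 2 := by
      rw [Finset.card_pair]
      intro h
      have := congrArg (fun g : SL(2, ℤ) => g.1 0 0) h
      simp at this
    rw [hcard]
    have : ((k * Γ.index : ℤ) : ℝ) < ((24 * m : ℤ) : ℝ) := by exact_mod_cast hm
    push_cast at this ⊢
    linarith

/-- **Sturm bound**, general: `q = e(τ)`. -/
theorem sturm [Γ.FiniteIndex] (hF : IsMF Γ k F)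
    {a : ℕ → ℂ} (ha : ∀ τ : ℍ, HasSum (fun n => a n * (Function.Periodic.qParam 1 τ) ^ n) (F τ))
    {m : ℕ} (h0 : ∀ n < m, a n = 0) (hm : k * Γ.index < 12 * m) : F = 0 := by
  classical
  have hO := isBigO_of_hasSum one_pos ha h0
  refine eq_zero_of_growth hF {1} ?_ (c := m) ?_ ?_
  · intro x hx y hy _
    rw [Finset.mem_singleton] at hx hy
    rw [hx, hy]
  · intro x hx
    rw [Finset.mem_singleton] at hx
    subst hx
    rw [inv_one, SlashAction.slash_one]
    simpa using hO
  · have : ((k * Γ.index : ℤ) : ℝ) < ((12 * m : ℤ) : ℝ) := by exact_mod_cast hm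
    push_cast at this ⊢
    simpa using this

end Vale.Agent.P022.H29.L3
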