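import Vale.Agent.P022.H29.L3.Sturm

/-!
Helper29 (P022, P022-L3, chapter G, row [WR]): the Wronskian of two forms of the same weight is a
form, its expansion, and the identity for the two theta functions of level `Γ₁(6)`, which shows
that the derivative of `p = (X - Y) / (2 (X + 2 Y))` has no zero.
-/

open UpperHalfPlane ModularForm Filter Asymptotics
open scoped Manifold MatrixGroups ModularForm Topology Derivative

noncomputable section

namespace Vale.Agent.P022.H29.L3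

open Vale.Agent.P022.H218.L3

/-- the Wronskian. -/
def wr (f g : ℍ → ℂ) : ℍ → ℂ := f * D g - g * D f

theorem wr_apply (f g : ℍ → ℂ) (τ : ℍ) : wr f g τ = f τ * D g τ - g τ * D f τ := rfl

theorem D_mem {f : ℍ → ℂ} (hf : f ∈ Hol) : D f ∈ Hol :=
  Derivative.normalizedDerivOfComplex_mdifferentiable hf

theorem wr_mem {f g : ℍ → ℂ} (hf : f ∈ Hol) (hg : g ∈ Hol) : wr f g ∈ Hol :=
  Hol.sub_mem (Hol.mul_mem hf (D_mem hg)) (Hol.mul_mem hg (D_mem hf))

/-- the Wronskian commutes with the slash action. -/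
theorem wr_slash {f g : ℍ → ℂ} (hf : f ∈ Hol) (hg : g ∈ Hol) (k : ℤ) (γ : SL(2, ℤ)) :
    (wr f g) ∣[2 * k + 2] γ = wr (f ∣[k] γ) (g ∣[k] γ) := by
  have e1 := Derivative.normalizedDerivOfComplex_SL_slash (k := k) hf (γ := γ)
  have e2 := Derivative.normalizedDerivOfComplex_SL_slash (k := k) hg (γ := γ)
  have h1 : (f * D g) ∣[2 * k + 2] γ = (f ∣[k] γ) * (D g ∣[k + 2] γ) := by
    rw [show 2 * k + 2 = k + (k + 2) by ring, mul_slash_SL2]
  have h2 : (g * D f) ∣[2 * k + 2] γ = (g ∣[k] γ) * (D f ∣[k + 2] γ) := by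
    rw [show 2 * k + 2 = k + (k + 2) by ring, mul_slash_SL2]
  have h3 : (wr f g) ∣[2 * k + 2] γ = (f * D g) ∣[2 * k + 2] γ - (g * D f) ∣[2 * k + 2] γ := by
    rw [wr, sub_eq_add_neg, SlashAction.add_slash, SlashAction.neg_slash, ← sub_eq_add_neg]
  rw [h3, h1, h2]
  funext τ
  have a1 := congrFun e1 τ
  have a2 := congrFun e2 τ
  simp only [Pi.sub_apply, Pi.mul_apply] at a1 a2 ⊢
  rw [wr_apply, a1, a2]
  ring

/-- Cauchy: the derivative of a holomorphic function bounded at `i∞` is bounded at `i∞`. -/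
theorem D_bdd {f : ℍ → ℂ} (hf : f ∈ Hol) (hb : IsBoundedAtImInfty f) :
    IsBoundedAtImInfty (D f) := by
  rw [isBoundedAtImInfty_iff] at hb ⊢
  obtain ⟨M, A, hMA⟩ := hb
  refine ⟨‖(2 * Real.pi * Complex.I)⁻¹‖ * M, max A 1 + 1, fun τ hτ => ?_⟩
  have hτA : A + 1 ≤ τ.im := (add_le_add_left (le_max_left A 1) 1).trans hτ
  have hτ1 : 2 ≤ τ.im := by
    have := (add_le_add_left (le_max_right A 1) 1).trans hτ
    linarith
  unfold Derivative.normalizedDerivOfComplex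
  rw [norm_mul]
  refine mul_le_mul_of_nonneg_left ?_ (norm_nonneg _)
  have hball : ∀ z ∈ Metric.closedBall (τ : ℂ) 1, max A 1 ≤ z.im := by
    intro z hz
    rw [Metric.mem_closedBall, dist_eq_norm] at hz
    have h1 : |(z - τ).im| ≤ 1 := (Complex.abs_im_le_norm _).trans hz
    rw [Complex.sub_im] at h1
    have h2 := (abs_le.1 h1).1
    have h3 : (τ : ℂ).im = τ.im := rfl
    rw [h3] at h2
    linarith
  have hpos : ∀ z ∈ Metric.closedBall (τ : ℂ) 1, 0 < z.im := fun z hz =>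
    lt_of_lt_of_le one_pos ((le_max_right A 1).trans (hball z hz))
  have hdiff : DifferentiableOn ℂ (f ∘ ofComplex) upperHalfPlaneSet :=
    UpperHalfPlane.mdifferentiable_iff.1 hf
  have hd : DiffContOnCl ℂ (f ∘ ofComplex) (Metric.ball (τ : ℂ) 1) := by
    apply DifferentiableOn.diffContOnCl
    refine hdiff.mono fun z hz => ?_
    rw [closure_ball _ one_ne_zero] at hz
    exact hpos z hz
  have := Complex.norm_deriv_le_of_forall_mem_sphere_norm_le one_pos hd (C := M) (fun z hz => by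
    have hz' : z ∈ Metric.closedBall (τ : ℂ) 1 := Metric.sphere_subset_closedBall hz
    have hz0 := hpos z hz'
    rw [Function.comp_apply, ofComplex_apply_of_im_pos hz0]
    refine hMA _ ?_
    exact (le_max_left A 1).trans (hball z hz'))
  simpa using this

theorem wr_bdd {f g : ℍ → ℂ} (hf : f ∈ Hol) (hg : g ∈ Hol) (hfb : IsBoundedAtImInfty f)
    (hgb : IsBoundedAtImInfty g) : IsBoundedAtImInfty (wr f g) := by
  have h1 : IsBoundedAtImInfty (f * D g) := hfb.mul (D_bdd hg hgb)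
  have h2 : IsBoundedAtImInfty (g * D f) := hgb.mul (D_bdd hf hfb)
  have h3 : IsBoundedAtImInfty (f * D g + -(g * D f)) := h1.add h2.neg
  rwa [← sub_eq_add_neg] at h3

/-- **the Wronskian of two forms of weight `k` is a form of weight `2 k + 2`.** -/
theorem IsMF.wr {Γ : Subgroup SL(2, ℤ)} {k : ℤ} {f g : ℍ → ℂ} (hf : IsMF Γ k f)
    (hg : IsMF Γ k g) : IsMF Γ (2 * k + 2) (wr f g) where
  hol := wr_mem hf.hol hg.hol
  slash γ hγ := by rw [wr_slash hf.hol hg.hol, hf.slash γ hγ, hg.slash γ hγ]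
  bdd γ := by
    rw [wr_slash hf.hol hg.hol]
    exact wr_bdd (slash_mem hf.hol _ _) (slash_mem hg.hol _ _) (hf.bdd γ) (hg.bdd γ)

/-! ### expansions -/

/-- `f = ∑ a_n q^n` on the whole upper half plane. -/
def Ex (a : ℕ → ℂ) (f : ℍ → ℂ) : Prop := ∀ τ : ℍ, HasSum (fun n => a n * (Function.Periodic.qParam 1 τ) ^ n) (f τ)

/-- the Cauchy product of coefficients -/
def cmul (a b : ℕ → ℂ) (n : ℕ) : ℂ := ∑ x ∈ Finset.HasAntidiagonal.antidiagonal n, a x.1 * b x.2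

theorem Ex.mul {a b : ℕ → ℂ} {f g : ℍ → ℂ} (hf : Ex a f) (hg : Ex b g) :
    Ex (cmul a b) (f * g) := by
  intro τ
  have h1 := (hf τ).summable.norm
  have h2 := (hg τ).summable.norm
  have h3 : HasSum (fun n => ∑ x ∈ Finset.HasAntidiagonal.antidiagonal n,
      (a x.1 * (Function.Periodic.qParam 1 τ) ^ x.1) * (b x.2 * (Function.Periodic.qParam 1 τ) ^ x.2)) (f τ * g τ) := by
    rw [← (hf τ).tsum_eq, ← (hg τ).tsum_eq,
      tsum_mul_tsum_eq_tsum_sum_antidiagonal_of_summable_norm h1 h2]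
    exact (summable_norm_sum_mul_antidiagonal_of_summable_norm h1 h2).of_norm.hasSum
  refine h3.congr_fun ?_ |> id
  intro n
  rw [cmul, Finset.sum_mul]
  refine Finset.sum_congr rfl fun x hx => ?_
  rw [← Finset.HasAntidiagonal.mem_antidiagonal.1 hx, pow_add]
  ring

theorem Ex.add {a b : ℕ → ℂ} {f g : ℍ → ℂ} (hf : Ex a f) (hg : Ex b g) :
    Ex (fun n => a n + b n) (f + g) := fun τ => by
  have h := (hf τ).add (hg τ)
  simp only [← add_mul] at h
  exact h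

theorem Ex.sub {a b : ℕ → ℂ} {f g : ℍ → ℂ} (hf : Ex a f) (hg : Ex b g) :
    Ex (fun n => a n - b n) (f - g) := fun τ => by
  have h := (hf τ).sub (hg τ)
  simp only [← sub_mul] at h
  exact h

theorem Ex.smul {a : ℕ → ℂ} {f : ℍ → ℂ} (c : ℂ) (hf : Ex a f) :
    Ex (fun n => c * a n) (c • f) := fun τ => by
  have h := (hf τ).mul_left c
  simp only [← mul_assoc] at h
  exact h

theorem Ex.D {a : ℕ → ℂ} {f : ℍ → ℂ} (hf : Ex a f) : Ex (fun n => n * a n) (D f) := by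
  intro τ
  set y0 : ℝ := τ.im / 2 with hy0
  have hy0p : 0 < y0 := by have := τ.im_pos; rw [hy0]; linarith
  set τ0 : ℍ := ⟨y0 * Complex.I, by simpa using hy0p⟩ with hτ0
  have hτ0im : τ0.im = y0 := by
    rw [hτ0]
    show (y0 * Complex.I : ℂ).im = y0
    simp
  set U : Set ℂ := {w | y0 < w.im} with hU
  have hUo : IsOpen U := isOpen_lt continuous_const Complex.continuous_im
  set G : ℕ → ℂ → ℂ := fun n w => a n * (Function.Periodic.qParam 1 w) ^ n with hG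
  have hu : Summable fun n => ‖a n * (Function.Periodic.qParam 1 τ0) ^ n‖ := (hf τ0).summable.norm
  have hq : ∀ w : ℂ, HasDerivAt (Function.Periodic.qParam 1) (2 * Real.pi * Complex.I * Function.Periodic.qParam 1 w) w := by
    intro w
    have h1 : HasDerivAt (fun w : ℂ => 2 * Real.pi * Complex.I * w / (1 : ℝ))
        (2 * Real.pi * Complex.I) w := by
      simpa using (hasDerivAt_id w).const_mul (2 * Real.pi * Complex.I)
    refine h1.cexp.congr_deriv ?_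
    rw [mul_comm]
    rfl
  have hGd : ∀ n w, HasDerivAt (G n) (a n * (n * (2 * Real.pi * Complex.I) * (Function.Periodic.qParam 1 w) ^ n)) w := by
    intro n w
    have h1 := ((hq w).pow n).const_mul (a n)
    refine h1.congr_deriv ?_
    rcases n with _ | n
    · simp
    · rw [Nat.add_sub_cancel, pow_succ]
      ring
  have hle : ∀ n w, w ∈ U → ‖G n w‖ ≤ ‖a n * (Function.Periodic.qParam 1 τ0) ^ n‖ := by
    intro n w hw
    rw [hG]
    simp only [norm_mul, norm_pow]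
    refine mul_le_mul_of_nonneg_left (pow_le_pow_left₀ (norm_nonneg _) ?_ n) (norm_nonneg _)
    rw [Function.Periodic.norm_qParam, Function.Periodic.norm_qParam]
    apply Real.exp_le_exp.2
    have e1 : ((τ0 : ℍ) : ℂ).im = y0 := hτ0im
    rw [e1]
    have hw' : y0 < w.im := hw
    have : -2 * Real.pi < 0 := by have := Real.pi_pos; linarith
    simp only [div_one]
    nlinarith
  have hτU : (τ : ℂ) ∈ U := by
    show y0 < (τ : ℂ).im
    have := τ.im_pos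
    rw [hy0]
    show τ.im / 2 < τ.im
    linarith
  have key := Complex.hasSum_deriv_of_summable_norm (F := G) hu
    (fun n => fun w _ => (hGd n w).differentiableAt.differentiableWithinAt) hUo hle hτU
  have hfun : (fun w => ∑' n, G n w) =ᶠ[𝓝 (τ : ℂ)] (f ∘ ofComplex) := by
    filter_upwards [hUo.mem_nhds hτU] with w hw
    have hw0 : 0 < w.im := hy0p.trans hw
    rw [Function.comp_apply, ofComplex_apply_of_im_pos hw0]
    exact (hf ⟨w, hw0⟩).tsum_eq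
  rw [hfun.deriv_eq] at key
  have key2 := key.mul_left ((2 * Real.pi * Complex.I)⁻¹)
  refine key2.congr_fun ?_ |> id
  intro n
  rw [(hGd n τ).deriv]
  have : (2 * Real.pi * Complex.I : ℂ) ≠ 0 := Complex.two_pi_I_ne_zero
  field_simp

theorem Ex.wr {a b : ℕ → ℂ} {f g : ℍ → ℂ} (hf : Ex a f) (hg : Ex b g) :
    Ex (fun n => cmul a (fun n => n * b n) n - cmul b (fun n => n * a n) n) (wr f g) :=
  (hf.mul hg.D).sub (hg.mul hf.D)

/-! ### the identity at level `Γ₁(6)` -/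

/-- **`6 (X Y' - Y X') = (X - Y) (X - 2 Y) (X + Y) (X + 2 Y)`** (derivatives with respect to
`2 π i τ`). -/
theorem six_wr {Γ : Subgroup SL(2, ℤ)} [Γ.FiniteIndex] (hidx : Γ.index ≤ 24)
    (hneg : (-1 : SL(2, ℤ)) ∉ Γ) {X Y : ℍ → ℂ} (hX : IsMF Γ 1 X) (hY : IsMF Γ 1 Y)
    {a b : ℕ → ℂ} (ha : Ex a X) (hb : Ex b Y)
    (a0 : a 0 = 1) (a1 : a 1 = 6) (a2 : a 2 = 0) (a3 : a 3 = 6) (a4 : a 4 = 6)
    (b0 : b 0 = 1) (b1 : b 1 = 0) (b2 : b 2 = 6) (b3 : b 3 = 0) (b4 : b 4 = 0) (τ : ℍ) :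
    6 * wr X Y τ = (X τ - Y τ) * (X τ - 2 * Y τ) * (X τ + Y τ) * (X τ + 2 * Y τ) := by
  set F : ℍ → ℂ := (6 : ℂ) • wr X Y -
    (X - Y) * (X - (2 : ℂ) • Y) * (X + Y) * (X + (2 : ℂ) • Y) with hF
  have hw : IsMF Γ 4 ((6 : ℂ) • wr X Y) := by
    have := (IsMF.wr hX hY).smul 6
    norm_num at this
    exact this
  have hp : IsMF Γ 4 ((X - Y) * (X - (2 : ℂ) • Y) * (X + Y) * (X + (2 : ℂ) • Y)) := by
    have := (((hX.sub hY).mul (hX.sub (hY.smul 2))).mul (hX.add hY)).mul (hX.add (hY.smul 2))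
    norm_num at this
    exact this
  have hMF : IsMF Γ 4 F := hw.sub hp
  have hEx := ((Ex.wr ha hb).smul 6).sub
    ((((ha.sub hb).mul (ha.sub (hb.smul 2))).mul (ha.add hb)).mul (ha.add (hb.smul 2)))
  have h0 : F = 0 := by
    refine sturm_of_neg_notMem hMF hneg hEx (m := 5) ?_ ?_
    · intro n hn
      interval_cases n <;>
        simp [cmul, Finset.Nat.antidiagonal_succ, a0, a1, a2, a3, a4, b0, b1, b2, b3, b4] <;>
        norm_num
    · have : (Γ.index : ℤ) ≤ 24 := by exact_mod_cast hidx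
      push_cast
      linarith
  have h1 := congrFun h0 τ
  simp only [hF, Pi.sub_apply, Pi.smul_apply, Pi.mul_apply, Pi.add_apply, smul_eq_mul,
    Pi.zero_apply] at h1
  linear_combination h1

/-- the Hauptmodul -/
def hp (X Y : ℍ → ℂ) (τ : ℍ) : ℂ := (X τ - Y τ) / (2 * (X τ + 2 * Y τ))

theorem hp_mem {X Y : ℍ → ℂ} (hX : X ∈ Hol) (hY : Y ∈ Hol) (h : ∀ τ, X τ + 2 * Y τ ≠ 0) :
    hp X Y ∈ Hol := by
  have h1 : (X - Y) ∈ Hol := Hol.sub_mem hX hY
  have h2 : ((2 : ℂ) • (X + (2 : ℂ) • Y)) ∈ Hol := Hol.smul_mem (Hol.add_mem hX (Hol.smul_mem hY 2)) 2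
  exact (mem_Hol.1 h1).div (mem_Hol.1 h2) fun τ => mul_ne_zero two_ne_zero (h τ)

/-- the derivative of the Hauptmodul -/
theorem D_hp {X Y : ℍ → ℂ} (hX : X ∈ Hol) (hY : Y ∈ Hol) (h : ∀ τ, X τ + 2 * Y τ ≠ 0) (τ : ℍ) :
    D (hp X Y) τ = - 3 * wr X Y τ / (2 * (X τ + 2 * Y τ) ^ 2) := by
  have hxd : DifferentiableAt ℂ (X ∘ ofComplex) τ := UpperHalfPlane.mdifferentiableAt_iff.mp (hX τ)
  have hyd : DifferentiableAt ℂ (Y ∘ ofComplex) τ := UpperHalfPlane.mdifferentiableAt_iff.mp (hY τ)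
  have e : hp X Y ∘ ofComplex = fun z => ((X ∘ ofComplex) z - (Y ∘ ofComplex) z) /
      (2 * ((X ∘ ofComplex) z + 2 * (Y ∘ ofComplex) z)) := rfl
  have h0 : 2 * ((X ∘ ofComplex) (τ : ℂ) + 2 * (Y ∘ ofComplex) (τ : ℂ)) ≠ 0 := by
    simp only [Function.comp_apply, ofComplex_apply]
    exact mul_ne_zero two_ne_zero (h τ)
  have hd := (hxd.hasDerivAt.sub hyd.hasDerivAt).div
    ((hxd.hasDerivAt.add (hyd.hasDerivAt.const_mul 2)).const_mul 2) h0
  have hd' : deriv (hp X Y ∘ ofComplex) τ = _ := hd.deriv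
  rw [wr_apply]
  unfold Derivative.normalizedDerivOfComplex
  rw [hd']
  simp only [Function.comp_apply, ofComplex_apply, Pi.sub_apply, Pi.add_apply]
  have h1 := h τ
  have h2 : (2 * Real.pi * Complex.I : ℂ) ≠ 0 := Complex.two_pi_I_ne_zero
  field_simp
  ring

/-- **the derivative of the Hauptmodul has no zero.** -/
theorem D_hp_ne_zero {Γ : Subgroup SL(2, ℤ)} [Γ.FiniteIndex] (hidx : Γ.index ≤ 24)
    (hneg : (-1 : SL(2, ℤ)) ∉ Γ) {X Y : ℍ → ℂ} (hX : IsMF Γ 1 X) (hY : IsMF Γ 1 Y)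
    {a b : ℕ → ℂ} (ha : Ex a X) (hb : Ex b Y)
    (a0 : a 0 = 1) (a1 : a 1 = 6) (a2 : a 2 = 0) (a3 : a 3 = 6) (a4 : a 4 = 6)
    (b0 : b 0 = 1) (b1 : b 1 = 0) (b2 : b 2 = 6) (b3 : b 3 = 0) (b4 : b 4 = 0)
    (h1 : ∀ τ, X τ - Y τ ≠ 0) (h2 : ∀ τ, X τ - 2 * Y τ ≠ 0) (h3 : ∀ τ, X τ + Y τ ≠ 0)
    (h4 : ∀ τ, X τ + 2 * Y τ ≠ 0) (τ : ℍ) : D (hp X Y) τ ≠ 0 := by
  rw [D_hp hX.hol hY.hol h4]
  have h := six_wr hidx hneg hX hY ha hb a0 a1 a2 a3 a4 b0 b1 b2 b3 b4 τ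
  have hw : wr X Y τ ≠ 0 := by
    intro h0
    rw [h0, mul_zero] at h
    exact mul_ne_zero (mul_ne_zero (mul_ne_zero (h1 τ) (h2 τ)) (h3 τ)) (h4 τ) h.symm
  exact div_ne_zero (mul_ne_zero (by norm_num) hw) (mul_ne_zero two_ne_zero (pow_ne_zero _ (h4 τ)))

theorem deriv_hp_ne_zero {Γ : Subgroup SL(2, ℤ)} [Γ.FiniteIndex] (hidx : Γ.index ≤ 24)
    (hneg : (-1 : SL(2, ℤ)) ∉ Γ) {X Y : ℍ → ℂ} (hX : IsMF Γ 1 X) (hY : IsMF Γ 1 Y)
    {a b : ℕ → ℂ} (ha : Ex a X) (hb : Ex b Y)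
    (a0 : a 0 = 1) (a1 : a 1 = 6) (a2 : a 2 = 0) (a3 : a 3 = 6) (a4 : a 4 = 6)
    (b0 : b 0 = 1) (b1 : b 1 = 0) (b2 : b 2 = 6) (b3 : b 3 = 0) (b4 : b 4 = 0)
    (h1 : ∀ τ, X τ - Y τ ≠ 0) (h2 : ∀ τ, X τ - 2 * Y τ ≠ 0) (h3 : ∀ τ, X τ + Y τ ≠ 0)
    (h4 : ∀ τ, X τ + 2 * Y τ ≠ 0) (τ : ℍ) : deriv (hp X Y ∘ ofComplex) (τ : ℂ) ≠ 0 := by
  intro h
  refine D_hp_ne_zero hidx hneg hX hY ha hb a0 a1 a2 a3 a4 b0 b1 b2 b3 b4 h1 h2 h3 h4 τ ?_
  unfold Derivative.normalizedDerivOfComplex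
  rw [h, mul_zero]

end Vale.Agent.P022.H29.L3
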